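import Mathlib

/-!
# P036 (Heilbronn's triangle problem): point sets covered by few direction-avoiding sets

If `n` points of the unit square are covered by `k` sets, each of which determines no direction
inside some open double cone (for instance: each of which is monotone), then three of the points
span a triangle of area at most `18 k ^ 2 / (d n ^ 2)`, where `d` measures the width of the cones.
-/

namespace Vale.Agent.Results.P036.DirectionAvoiding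

/-- `Area(pqr) = |det (q - p, r - p)| / 2`. -/
noncomputable def area (p q r : ℝ × ℝ) : ℝ :=
  |(q.1 - p.1) * (r.2 - p.2) - (q.2 - p.2) * (r.1 - p.1)| / 2

/-- The linear form with coefficient vector `c`. -/
def form (c v : ℝ × ℝ) : ℝ := c.1 * v.1 + c.2 * v.2

/-- No difference of two points of `S` lies in the open double cone
`{v : form c v * form c' v < 0}`. -/
def AvoidsCone (S : Set (ℝ × ℝ)) (c c' : ℝ × ℝ) : Prop :=
  ∀ p ∈ S, ∀ q ∈ S, 0 ≤ form c (p - q) * form c' (p - q)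

lemma le_of_prod {x y : ℝ} (h : 0 ≤ x * y) (hs : 0 ≤ x + y) : 0 ≤ x ∧ 0 ≤ y := by
  constructor
  · by_contra hx
    push Not at hx
    have hy : 0 < y := by linarith
    nlinarith
  · by_contra hy
    push Not at hy
    have hx : 0 < x := by linarith
    nlinarith

lemma sorted_bound (e1 e2 f1 f2 w : ℝ) (he1 : 0 ≤ e1) (he2 : 0 ≤ e2) (hf1 : 0 ≤ f1)
    (hf2 : 0 ≤ f2) (hw : e1 + e2 + f1 + f2 ≤ w) :
    |e1 * (e2 + f2) - e2 * (e1 + f1)| ≤ w ^ 2 / 4 := by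
  have h0 : 0 ≤ e1 + e2 + f1 + f2 := by positivity
  have h1 : (e1 + e2 + f1 + f2) ^ 2 ≤ w ^ 2 := by
    apply pow_le_pow_left₀ h0 hw
  rw [abs_le]
  constructor
  · nlinarith [mul_nonneg he1 hf2, mul_nonneg he2 hf1, mul_nonneg he1 he2, mul_nonneg hf1 hf2,
      sq_nonneg (e1 + f1 - e2 - f2)]
  · nlinarith [mul_nonneg he1 hf2, mul_nonneg he2 hf1, mul_nonneg he1 he2, mul_nonneg hf1 hf2,
      sq_nonneg (e1 + f1 - e2 - f2)]

lemma three_sorted (c c' : ℝ × ℝ) (d w : ℝ) (hd : 0 < d)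
    (hdet : d ≤ |c.1 * c'.2 - c.2 * c'.1|) (a b e : ℝ × ℝ)
    (hab : 0 ≤ form c (b - a) * form c' (b - a)) (hbe : 0 ≤ form c (e - b) * form c' (e - b))
    (h1 : form c a + form c' a ≤ form c b + form c' b)
    (h2 : form c b + form c' b ≤ form c e + form c' e)
    (hw : (form c e + form c' e) - (form c a + form c' a) ≤ w) :
    area a b e ≤ w ^ 2 / (8 * d) := by
  simp only [form, Prod.fst_sub, Prod.snd_sub] at *
  obtain ⟨p1, p2⟩ := le_of_prod hab (by linarith)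
  obtain ⟨q1, q2⟩ := le_of_prod hbe (by linarith)
  have hb := sorted_bound _ _ _ _ w p1 p2 q1 q2 (by linarith)
  have hid : (c.1 * (b.1 - a.1) + c.2 * (b.2 - a.2)) *
      ((c'.1 * (b.1 - a.1) + c'.2 * (b.2 - a.2)) + (c'.1 * (e.1 - b.1) + c'.2 * (e.2 - b.2))) -
      (c'.1 * (b.1 - a.1) + c'.2 * (b.2 - a.2)) *
      ((c.1 * (b.1 - a.1) + c.2 * (b.2 - a.2)) + (c.1 * (e.1 - b.1) + c.2 * (e.2 - b.2)))
      = (c.1 * c'.2 - c.2 * c'.1) *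
        ((b.1 - a.1) * (e.2 - a.2) - (b.2 - a.2) * (e.1 - a.1)) := by ring
  rw [hid, abs_mul] at hb
  unfold area
  have h3 : d * |(b.1 - a.1) * (e.2 - a.2) - (b.2 - a.2) * (e.1 - a.1)| ≤ w ^ 2 / 4 :=
    le_trans (mul_le_mul_of_nonneg_right hdet (abs_nonneg _)) hb
  rw [div_le_div_iff₀ (by norm_num) (by positivity)]
  nlinarith

lemma three (c c' : ℝ × ℝ) (d w lo : ℝ) (hd : 0 < d)
    (hdet : d ≤ |c.1 * c'.2 - c.2 * c'.1|) (S : Set (ℝ × ℝ)) (hS : AvoidsCone S c c')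
    (P : Finset (ℝ × ℝ)) (x y z : ℝ × ℝ) (hxP : x ∈ P) (hyP : y ∈ P) (hzP : z ∈ P)
    (hx : x ∈ S) (hy : y ∈ S) (hz : z ∈ S) (hxy : x ≠ y) (hxz : x ≠ z) (hyz : y ≠ z)
    (bx : lo ≤ form c x + form c' x ∧ form c x + form c' x ≤ lo + w)
    (by' : lo ≤ form c y + form c' y ∧ form c y + form c' y ≤ lo + w)
    (bz : lo ≤ form c z + form c' z ∧ form c z + form c' z ≤ lo + w) :
    ∃ p ∈ P, ∃ q ∈ P, ∃ r ∈ P, p ≠ q ∧ p ≠ r ∧ q ≠ r ∧ area p q r ≤ w ^ 2 / (8 * d) := by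
  rcases le_total (form c x + form c' x) (form c y + form c' y) with h1 | h1 <;>
  rcases le_total (form c y + form c' y) (form c z + form c' z) with h2 | h2 <;>
  rcases le_total (form c x + form c' x) (form c z + form c' z) with h3 | h3
  · exact ⟨x, hxP, y, hyP, z, hzP, hxy, hxz, hyz,
      three_sorted c c' d w hd hdet x y z (hS y hy x hx) (hS z hz y hy) h1 h2 (by linarith)⟩
  · exact ⟨x, hxP, y, hyP, z, hzP, hxy, hxz, hyz,
      three_sorted c c' d w hd hdet x y z (hS y hy x hx) (hS z hz y hy) h1 h2 (by linarith)⟩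
  · exact ⟨x, hxP, z, hzP, y, hyP, hxz, hxy, hyz.symm,
      three_sorted c c' d w hd hdet x z y (hS z hz x hx) (hS y hy z hz) h3 h2 (by linarith)⟩
  · exact ⟨z, hzP, x, hxP, y, hyP, hxz.symm, hyz.symm, hxy,
      three_sorted c c' d w hd hdet z x y (hS x hx z hz) (hS y hy x hx) h3 h1 (by linarith)⟩
  · exact ⟨y, hyP, x, hxP, z, hzP, hxy.symm, hyz, hxz,
      three_sorted c c' d w hd hdet y x z (hS x hx y hy) (hS z hz x hx) h1 h3 (by linarith)⟩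
  · exact ⟨y, hyP, z, hzP, x, hxP, hyz, hxy.symm, hxz.symm,
      three_sorted c c' d w hd hdet y z x (hS z hz y hy) (hS x hx z hz) h2 h3 (by linarith)⟩
  · exact ⟨z, hzP, y, hyP, x, hxP, hyz.symm, hxz.symm, hxy.symm,
      three_sorted c c' d w hd hdet z y x (hS y hy z hz) (hS x hx y hy) h2 h1 (by linarith)⟩
  · exact ⟨z, hzP, y, hyP, x, hxP, hyz.symm, hxz.symm, hxy.symm,
      three_sorted c c' d w hd hdet z y x (hS y hy z hz) (hS x hx y hy) h2 h1 (by linarith)⟩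

lemma bin (t : ℝ) (ht0 : 0 ≤ t) (ht1 : t ≤ 1) (M : ℕ) (hM : 1 ≤ M) :
    ((min ⌊t * M⌋₊ (M - 1) : ℕ) : ℝ) ≤ t * M ∧
      t * M ≤ ((min ⌊t * M⌋₊ (M - 1) : ℕ) : ℝ) + 1 := by
  have hM0 : (0 : ℝ) ≤ M := Nat.cast_nonneg M
  have hfl : ((⌊t * M⌋₊ : ℕ) : ℝ) ≤ t * M := Nat.floor_le (by positivity)
  have hlt : t * M < ((⌊t * M⌋₊ : ℕ) : ℝ) + 1 := Nat.lt_floor_add_one _
  rcases le_total ⌊t * M⌋₊ (M - 1) with h | h
  · rw [min_eq_left h]
    exact ⟨hfl, hlt.le⟩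
  · rw [min_eq_right h]
    constructor
    · have : ((M - 1 : ℕ) : ℝ) ≤ ((⌊t * M⌋₊ : ℕ) : ℝ) := by exact_mod_cast h
      linarith
    · rw [Nat.cast_sub hM]
      push_cast
      nlinarith

lemma range1 (g x : ℝ) (h0 : 0 ≤ x) (h1 : x ≤ 1) :
    min g 0 ≤ g * x ∧ g * x ≤ min g 0 + |g| := by
  rcases le_total 0 g with h | h
  · rw [min_eq_right h, abs_of_nonneg h]
    constructor <;> nlinarith
  · rw [min_eq_left h, abs_of_nonpos h]
    constructor <;> nlinarith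

theorem main (P : Finset (ℝ × ℝ)) (hP : ∀ p ∈ P, 0 ≤ p.1 ∧ p.1 ≤ 1 ∧ 0 ≤ p.2 ∧ p.2 ≤ 1)
    (k M : ℕ) (hM : 1 ≤ M) (d : ℝ) (hd : 0 < d)
    (S : Fin k → Set (ℝ × ℝ)) (c c' : Fin k → ℝ × ℝ)
    (hcov : ∀ p ∈ P, ∃ j, p ∈ S j)
    (hc : ∀ j, |(c j).1| + |(c j).2| ≤ 1) (hc' : ∀ j, |(c' j).1| + |(c' j).2| ≤ 1)
    (hdet : ∀ j, d ≤ |(c j).1 * (c' j).2 - (c j).2 * (c' j).1|)
    (hS : ∀ j, AvoidsCone (S j) (c j) (c' j))
    (hn : 2 * M * k < P.card) :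
    ∃ p ∈ P, ∃ q ∈ P, ∃ r ∈ P, p ≠ q ∧ p ≠ r ∧ q ≠ r ∧
      area p q r ≤ 1 / (2 * d * (M : ℝ) ^ 2) := by
  classical
  have hne : P.Nonempty := Finset.card_pos.mp (by omega)
  obtain ⟨p0, hp0⟩ := hne
  obtain ⟨j0, -⟩ := hcov p0 hp0
  have : Nonempty (Fin k) := ⟨j0⟩
  choose! j hj using hcov
  have hMpos : (0 : ℝ) < M := by exact_mod_cast hM
  -- lower end of the range of the sum of the two forms
  set lo : Fin k → ℝ := fun i => min ((c i).1 + (c' i).1) 0 + min ((c i).2 + (c' i).2) 0 with hlo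
  set t : Fin k → ℝ × ℝ → ℝ := fun i p => (form (c i) p + form (c' i) p - lo i) / 2 with ht
  have htr : ∀ i, ∀ p ∈ P, 0 ≤ t i p ∧ t i p ≤ 1 := by
    intro i p hp
    obtain ⟨a0, a1, b0, b1⟩ := hP p hp
    obtain ⟨r1, r2⟩ := range1 ((c i).1 + (c' i).1) p.1 a0 a1
    obtain ⟨s1, s2⟩ := range1 ((c i).2 + (c' i).2) p.2 b0 b1
    have e1 := abs_add_le (c i).1 (c' i).1
    have e2 := abs_add_le (c i).2 (c' i).2
    have e3 := hc i
    have e4 := hc' i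
    simp only [ht, hlo, form]
    constructor
    · apply div_nonneg _ (by norm_num)
      nlinarith
    · rw [div_le_one (by norm_num)]
      nlinarith
  set f : ℝ × ℝ → Fin k × ℕ := fun p => (j p, min ⌊t (j p) p * M⌋₊ (M - 1)) with hf
  have hmaps : ∀ p ∈ P, f p ∈ (Finset.univ : Finset (Fin k)) ×ˢ Finset.range M := by
    intro p _
    simp only [hf, Finset.mem_product, Finset.mem_univ, Finset.mem_range, true_and]
    exact lt_of_le_of_lt (min_le_right _ _) (by omega)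
  have hcard : ((Finset.univ : Finset (Fin k)) ×ˢ Finset.range M).card * 2 < P.card := by
    rw [Finset.card_product, Finset.card_univ, Fintype.card_fin, Finset.card_range]
    have : k * M * 2 = 2 * M * k := by ring
    omega
  obtain ⟨⟨i0, b0⟩, -, hfib⟩ :=
    Finset.exists_lt_card_fiber_of_mul_lt_card_of_maps_to hmaps hcard
  obtain ⟨x, hx, y, hy, z, hz, hxy, hxz, hyz⟩ := Finset.two_lt_card.mp hfib
  rw [Finset.mem_filter] at hx hy hz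
  have key : ∀ p ∈ P, f p = (i0, b0) → p ∈ S i0 ∧
      (lo i0 + 2 * b0 / M ≤ form (c i0) p + form (c' i0) p ∧
        form (c i0) p + form (c' i0) p ≤ lo i0 + 2 * b0 / M + 2 / M) := by
    intro p hp hfp
    simp only [hf, Prod.mk.injEq] at hfp
    obtain ⟨h1, h2⟩ := hfp
    have hpS := hj p hp
    rw [h1] at hpS
    refine ⟨hpS, ?_⟩
    obtain ⟨u0, u1⟩ := htr i0 p hp
    obtain ⟨v0, v1⟩ := bin (t i0 p) u0 u1 M hM
    rw [h1] at h2
    rw [h2] at v0 v1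
    have ht' : form (c i0) p + form (c' i0) p = lo i0 + 2 * t i0 p := by
      simp only [ht]; ring
    rw [ht']
    constructor
    · have : (b0 : ℝ) / M ≤ t i0 p := by rw [div_le_iff₀ hMpos]; exact v0
      have e : 2 * (b0 : ℝ) / M = 2 * ((b0 : ℝ) / M) := by ring
      rw [e]; linarith
    · have : t i0 p ≤ ((b0 : ℝ) + 1) / M := by rw [le_div_iff₀ hMpos]; exact v1
      have e : lo i0 + 2 * (b0 : ℝ) / M + 2 / M = lo i0 + 2 * (((b0 : ℝ) + 1) / M) := by ring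
      rw [e]; linarith
  obtain ⟨sx, bx⟩ := key x hx.1 hx.2
  obtain ⟨sy, by'⟩ := key y hy.1 hy.2
  obtain ⟨sz, bz⟩ := key z hz.1 hz.2
  obtain ⟨p, hp, q, hq, r, hr, n1, n2, n3, har⟩ :=
    three (c i0) (c' i0) d (2 / M) (lo i0 + 2 * b0 / M) hd (hdet i0) (S i0) (hS i0) P x y z
      hx.1 hy.1 hz.1 sx sy sz hxy hxz hyz bx by' bz
  refine ⟨p, hp, q, hq, r, hr, n1, n2, n3, le_trans har (le_of_eq ?_)⟩
  field_simp
  ring

theorem closed (P : Finset (ℝ × ℝ)) (hP : ∀ p ∈ P, 0 ≤ p.1 ∧ p.1 ≤ 1 ∧ 0 ≤ p.2 ∧ p.2 ≤ 1)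
    (k : ℕ) (hk : 1 ≤ k) (d : ℝ) (hd : 0 < d)
    (S : Fin k → Set (ℝ × ℝ)) (c c' : Fin k → ℝ × ℝ)
    (hcov : ∀ p ∈ P, ∃ j, p ∈ S j)
    (hc : ∀ j, |(c j).1| + |(c j).2| ≤ 1) (hc' : ∀ j, |(c' j).1| + |(c' j).2| ≤ 1)
    (hdet : ∀ j, d ≤ |(c j).1 * (c' j).2 - (c j).2 * (c' j).1|)
    (hS : ∀ j, AvoidsCone (S j) (c j) (c' j))
    (hn : 3 * k ≤ P.card) :
    ∃ p ∈ P, ∃ q ∈ P, ∃ r ∈ P, p ≠ q ∧ p ≠ r ∧ q ≠ r ∧
      area p q r ≤ 18 * (k : ℝ) ^ 2 / (d * (P.card : ℝ) ^ 2) := by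
  set n := P.card with hncard
  set M := (n - 1) / (2 * k) with hMdef
  have h2k : 0 < 2 * k := by omega
  have hM1 : 1 ≤ M := by
    rw [hMdef, Nat.le_div_iff_mul_le h2k]
    omega
  have hle : M * (2 * k) ≤ n - 1 := Nat.div_mul_le_self _ _
  have hlt : n - 1 < (M + 1) * (2 * k) := by
    rw [hMdef]
    have := Nat.lt_succ_iff.mpr (le_refl ((n - 1) / (2 * k)))
    exact (Nat.div_lt_iff_lt_mul h2k).mp this
  have hn' : 2 * M * k < n := by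
    have : 2 * M * k = M * (2 * k) := by ring
    omega
  obtain ⟨p, hp, q, hq, r, hr, n1, n2, n3, har⟩ :=
    main P hP k M hM1 d hd S c c' hcov hc hc' hdet hS hn'
  refine ⟨p, hp, q, hq, r, hr, n1, n2, n3, le_trans har ?_⟩
  have h6 : n ≤ 6 * k * M := by
    have e : (M + 1) * (2 * k) = 2 * (k * M) + 2 * k := by ring
    have e2 : 6 * k * M = 6 * (k * M) := by ring
    omega
  have h6r : (n : ℝ) ≤ 6 * k * M := by exact_mod_cast h6
  have hnpos : (0 : ℝ) < n := by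
    have : 0 < n := by omega
    exact_mod_cast this
  have hMpos : (0 : ℝ) < M := by exact_mod_cast hM1
  have hkpos : (0 : ℝ) < k := by exact_mod_cast hk
  rw [div_le_div_iff₀ (by positivity) (by positivity)]
  have hsq : (n : ℝ) ^ 2 ≤ (6 * k * M) ^ 2 := pow_le_pow_left₀ hnpos.le h6r 2
  nlinarith [mul_le_mul_of_nonneg_left hsq hd.le]

/-- `S` is monotone: either any two of its points are comparable coordinatewise (increasing), or
any two of its points are ordered oppositely in the two coordinates (decreasing). -/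
def IsMonotoneSet (S : Set (ℝ × ℝ)) : Prop :=
  (∀ p ∈ S, ∀ q ∈ S, 0 ≤ (p.1 - q.1) * (p.2 - q.2)) ∨
    (∀ p ∈ S, ∀ q ∈ S, (p.1 - q.1) * (p.2 - q.2) ≤ 0)

theorem monotone_cover (P : Finset (ℝ × ℝ))
    (hP : ∀ p ∈ P, 0 ≤ p.1 ∧ p.1 ≤ 1 ∧ 0 ≤ p.2 ∧ p.2 ≤ 1)
    (k : ℕ) (hk : 1 ≤ k) (S : Fin k → Set (ℝ × ℝ))
    (hcov : ∀ p ∈ P, ∃ j, p ∈ S j) (hS : ∀ j, IsMonotoneSet (S j)) (hn : 3 * k ≤ P.card) :
    ∃ p ∈ P, ∃ q ∈ P, ∃ r ∈ P, p ≠ q ∧ p ≠ r ∧ q ≠ r ∧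
      area p q r ≤ 18 * (k : ℝ) ^ 2 / (P.card : ℝ) ^ 2 := by
  classical
  have h := closed P hP k hk 1 one_pos S (fun _ => (1, 0))
    (fun j => if (∀ p ∈ S j, ∀ q ∈ S j, 0 ≤ (p.1 - q.1) * (p.2 - q.2)) then (0, 1) else (0, -1))
    hcov (by intro j; simp) (by intro j; split_ifs <;> simp) (by intro j; split_ifs <;> simp)
    (by
      intro j p hp q hq
      split_ifs with hj
      · simpa [form] using hj p hp q hq
      · have h2 := (hS j).resolve_left hj p hp q hq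
        simp only [form, Prod.fst_sub, Prod.snd_sub]
        nlinarith) hn
  simpa using h

/-- (1) `n > 2 M k` points of the unit square covered by `k` sets, the `j`-th of which avoids the
open double cone cut out by two linear forms with coefficient vectors of `ℓ¹` norm at most `1` and
determinant at least `d` in absolute value, contain a triangle of area at most `1 / (2 d M ^ 2)`.
(2) Hence a triangle of area at most `18 k ^ 2 / (d n ^ 2)` as soon as `n ≥ 3 k`.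
(3) In particular `n ≥ 3 k` points covered by `k` monotone sets contain a triangle of area at most
`18 k ^ 2 / n ^ 2`. -/
theorem result :
    (∀ (P : Finset (ℝ × ℝ)), (∀ p ∈ P, 0 ≤ p.1 ∧ p.1 ≤ 1 ∧ 0 ≤ p.2 ∧ p.2 ≤ 1) →
      ∀ (k M : ℕ), 1 ≤ M → ∀ d : ℝ, 0 < d →
      ∀ (S : Fin k → Set (ℝ × ℝ)) (c c' : Fin k → ℝ × ℝ),
      (∀ p ∈ P, ∃ j, p ∈ S j) →
      (∀ j, |(c j).1| + |(c j).2| ≤ 1) → (∀ j, |(c' j).1| + |(c' j).2| ≤ 1) →
      (∀ j, d ≤ |(c j).1 * (c' j).2 - (c j).2 * (c' j).1|) →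
      (∀ j, AvoidsCone (S j) (c j) (c' j)) → 2 * M * k < P.card →
      ∃ p ∈ P, ∃ q ∈ P, ∃ r ∈ P, p ≠ q ∧ p ≠ r ∧ q ≠ r ∧
        area p q r ≤ 1 / (2 * d * (M : ℝ) ^ 2)) ∧
    (∀ (P : Finset (ℝ × ℝ)), (∀ p ∈ P, 0 ≤ p.1 ∧ p.1 ≤ 1 ∧ 0 ≤ p.2 ∧ p.2 ≤ 1) →
      ∀ k : ℕ, 1 ≤ k → ∀ d : ℝ, 0 < d →
      ∀ (S : Fin k → Set (ℝ × ℝ)) (c c' : Fin k → ℝ × ℝ),
      (∀ p ∈ P, ∃ j, p ∈ S j) →
      (∀ j, |(c j).1| + |(c j).2| ≤ 1) → (∀ j, |(c' j).1| + |(c' j).2| ≤ 1) →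
      (∀ j, d ≤ |(c j).1 * (c' j).2 - (c j).2 * (c' j).1|) →
      (∀ j, AvoidsCone (S j) (c j) (c' j)) → 3 * k ≤ P.card →
      ∃ p ∈ P, ∃ q ∈ P, ∃ r ∈ P, p ≠ q ∧ p ≠ r ∧ q ≠ r ∧
        area p q r ≤ 18 * (k : ℝ) ^ 2 / (d * (P.card : ℝ) ^ 2)) ∧
    (∀ (P : Finset (ℝ × ℝ)), (∀ p ∈ P, 0 ≤ p.1 ∧ p.1 ≤ 1 ∧ 0 ≤ p.2 ∧ p.2 ≤ 1) →
      ∀ k : ℕ, 1 ≤ k → ∀ S : Fin k → Set (ℝ × ℝ),
      (∀ p ∈ P, ∃ j, p ∈ S j) → (∀ j, IsMonotoneSet (S j)) → 3 * k ≤ P.card →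
      ∃ p ∈ P, ∃ q ∈ P, ∃ r ∈ P, p ≠ q ∧ p ≠ r ∧ q ≠ r ∧
        area p q r ≤ 18 * (k : ℝ) ^ 2 / (P.card : ℝ) ^ 2) :=
  ⟨fun P hP k M hM d hd S c c' h1 h2 h3 h4 h5 h6 => main P hP k M hM d hd S c c' h1 h2 h3 h4 h5 h6,
   fun P hP k hk d hd S c c' h1 h2 h3 h4 h5 h6 => closed P hP k hk d hd S c c' h1 h2 h3 h4 h5 h6,
   fun P hP k hk S h1 h2 h3 => monotone_cover P hP k hk S h1 h2 h3⟩

end Vale.Agent.Results.P036.DirectionAvoiding
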